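import Vale.Agent.P251.Z.CompA
import Vale.Agent.P251.Z.KSph
import Vale.Agent.P251.Z.KosMoore
import Vale.Agent.P257.H314.Assemble

/-!
# P261, row (A): the Smith-Toda complex `V(n)` is acyclic for a Morava `K`-theory of height `n`

* `smul_zero_unit` : `v_h` acts as zero on the homotopy of `V ⊗ P` if `V` is cyclic for `h + 1`;
* `isZero_Tl` : the telescope of `v_h` on `V ⊗ P` vanishes;
* `acyclic_tower` : `K ⊗ V(n) = 0`.
-/

open CategoryTheory MonoidalCategory Limits Pretriangulated MonObj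

universe v u

set_option linter.unusedSectionVars false

namespace Vale.Agent.P261.H80

open Vale.Agent.P251 Vale.Agent.P251.T Vale.Agent.P251.M Vale.Agent.P251.S Vale.Agent.P251.F
  Vale.Agent.P251.Z Vale.Agent.P251.I
open Vale.Agent.P257.H314
open Vale.Agent.P251.M.EvenSpheres

section gen

variable {T : Type u} [Category.{v} T] [MonoidalCategory T] [SymmetricCategory T]

/-- the bottom map `P ⟶ V ⊗ P` -/
def bot {V : T} (i : 𝟙_ T ⟶ V) (P : T) : P ⟶ V ⊗ P := (λ_ P).inv ≫ i ▷ P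

lemma bot_naturality {V : T} (i : 𝟙_ T ⟶ V) {P Q : T} (f : P ⟶ Q) :
    f ≫ bot i Q = bot i P ≫ V ◁ f := by
  unfold bot
  rw [leftUnitor_inv_naturality_assoc, Category.assoc, whisker_exchange]

lemma bot_tensor {V : T} (i : 𝟙_ T ⟶ V) (R S : T) :
    (bot i R ▷ S) ≫ (α_ V R S).hom = bot i (R ⊗ S) := by
  unfold bot
  rw [comp_whiskerRight, Category.assoc, associator_naturality_left]
  simp

lemma red_braid {V : T} (i : 𝟙_ T ⟶ V) (A : T) :
    ((ρ_ A).inv ≫ (A ◁ i)) ≫ (β_ A V).hom = bot i A := by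
  unfold bot
  rw [Category.assoc, BraidedCategory.braiding_naturality_right]
  simp

end gen

variable {T : Type u} [Category.{v} T] [Preadditive T] [HasZeroObject T]
    [HasShift T ℤ] [∀ n : ℤ, (shiftFunctor T n).Additive] [Pretriangulated T] [IsTriangulated T]
    [MonoidalCategory T] [SymmetricCategory T] [TensorTriangulated T] [MonoidalClosed T]
    [HasCoproducts.{0} T] [HasProducts.{0} T] [StableCat T]
    {D : I.MUData T}

section

variable {p h : ℕ} {V : T} {i : 𝟙_ T ⟶ V} (H : Cyc D p (h + 1) i)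

/-- the product of `v_h` and the image of a homogeneous element of `Laz` -/
lemma gmul_vel (p h : ℕ) {m : ℤ} (z : Cob.wt Laz 0 m) :
    gmul rfl (D.vel p h) (D.evw 0 m z ≫ amOne D.R) =
      D.evw 0 (((p ^ h : ℤ) - 1) + m) ⟨(vw p h 0).1 * z.1, (vw p h 0).2.mul z.2⟩ ≫
        amOne D.R := by
  apply hring_of_injective (stdEven T)
  rw [← of_mul_of rfl, ← D.vel_spec, ← HRing.map_of, ← HRing.map_of, D.of_evw, D.of_evw, map_mul,
    map_mul]
  congr 1
  unfold MUData.law MUData.law1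
  rw [vv_map, vv_map]
  rfl

include H

lemma surj_bot {m : ℤ} (a : (stdEven T).S m ⟶ V ⊗ D.R) :
    ∃ z : Cob.wt Laz 0 m, a = (D.evw 0 m z ≫ amOne D.R) ≫ bot i D.R := by
  obtain ⟨z, hz⟩ := H.surj 0 m (a ≫ (V ◁ (λ_ D.R).inv) ≫ (β_ (Am D.R 1) V).inv)
  refine ⟨z, ?_⟩
  have h1 : a = (D.evw 0 m z ≫ (redC i).app (Am D.R 1)) ≫ (β_ (Am D.R 1) V).hom ≫
      (V ◁ (λ_ D.R).hom) := by
    rw [← hz]
    simp only [Category.assoc]
    have h2 : (β_ (Am D.R 1) V).inv ≫ (β_ (Am D.R 1) V).hom = 𝟙 _ := Iso.inv_hom_id _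
    rw [reassoc_of% h2, ← MonoidalCategory.whiskerLeft_comp, Iso.inv_hom_id]
    simp
  have h3 : (redC i).app (Am D.R 1) ≫ (β_ (Am D.R 1) V).hom = bot i (Am D.R 1) :=
    red_braid i (Am D.R 1)
  rw [h1, Category.assoc, reassoc_of% h3]
  have h4 : amOne D.R ≫ bot i D.R = bot i (Am D.R 1) ≫ V ◁ (amOne D.R) := bot_naturality i _
  rw [Category.assoc, h4]
  rfl

lemma zero_bot {m : ℤ} (z : Cob.wt Laz 0 m) (hz : z.1 ∈ P257.H314.IC p (h + 1) 0) :
    (D.evw 0 m z ≫ amOne D.R) ≫ bot i D.R = 0 := by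
  have h1 := (H.ker 0 m z).2 hz
  have h3 : (redC i).app (Am D.R 1) ≫ (β_ (Am D.R 1) V).hom = bot i (Am D.R 1) :=
    red_braid i (Am D.R 1)
  have h4 : amOne D.R ≫ bot i D.R = bot i (Am D.R 1) ≫ V ◁ (amOne D.R) := bot_naturality i _
  rw [Category.assoc, h4, ← h3]
  change D.evw 0 m z ≫ (((redC i).app (Am D.R 1)) ≫ _) ≫ _ = 0
  have h5 : D.evw 0 m z ≫ (redC i).app (Am D.R (0 + 1)) = 0 := h1
  rw [Category.assoc]
  erw [reassoc_of% h5]
  rw [zero_comp]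

omit H in
lemma vw_mem (p h : ℕ) : (vw p h 0).1 ∈ P257.H314.IC p (h + 1) 0 :=
  mem_IC_succ_iff.2 ⟨0, zero_mem _, 1, by
    rw [_root_.one_mul, zero_add]
    rfl⟩

/-- `v_h` acts as zero on `Hom(𝟙, V ⊗ P)`. -/
theorem smul_zero_unit (γ : 𝟙_ T ⟶ V ⊗ D.P) :
    γ ≫ V ◁ (ModStr.self D.P).smul (D.vs p h) = 0 := by
  obtain ⟨x, hx⟩ := sharpTot_surjective (E := stdEven T) (V ⊗ D.R)
    (γ ≫ (α_ V D.R (stdEven T).PS).inv)
  have hγ : γ = sharpTot (stdEven T) (V ⊗ D.R) x ≫ (α_ V D.R (stdEven T).PS).hom := by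
    rw [hx]; simp
  rw [hγ]
  clear hγ hx
  induction x using DirectSum.induction_on with
  | zero => rw [map_zero, zero_comp, zero_comp]
  | of m a =>
    rw [sharpTot_of]
    obtain ⟨z, rfl⟩ := surj_bot H a
    rw [sharp_comp, Category.assoc, Category.assoc, reassoc_of% (bot_tensor i D.R
      (stdEven T).PS), ← bot_naturality, ← Category.assoc, ← scMul_eq_smul]
    have h1 : scMul (D.vs p h) (sharp (D.evw 0 m z ≫ amOne D.R)) =
        sharp (gmul rfl (D.vel p h) (D.evw 0 m z ≫ amOne D.R)) := sharp_mul rfl _ _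
    rw [h1, ← bot_tensor, ← Category.assoc, ← sharp_comp, gmul_vel, zero_bot H _
      (Ideal.mul_mem_right _ _ (vw_mem p h)), sharp_zero, zero_comp]
  | add x y hx hy => rw [map_add, Preadditive.add_comp, Preadditive.add_comp, hx, hy, add_zero]

lemma odd_bot (l : ℤ) (f : (𝟙_ T)⟦2 * l + 1⟧ ⟶ V ⊗ D.R) : f = 0 := by
  have h1 := H.odd 0 l (f ≫ (V ◁ (λ_ D.R).inv) ≫ (β_ (Am D.R 1) V).inv)
  have h2 : IsIso ((V ◁ (λ_ D.R).inv) ≫ (β_ (Am D.R 1) V).inv) := inferInstance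
  have h3 : f ≫ ((V ◁ (λ_ D.R).inv) ≫ (β_ (Am D.R 1) V).inv) =
    0 ≫ ((V ◁ (λ_ D.R).inv) ≫ (β_ (Am D.R 1) V).inv) := by
    rw [zero_comp]; exact h1
  exact (cancel_mono _).1 h3

/-- `v_h` acts as zero on the homotopy of `V ⊗ P`. -/
theorem smul_zero {A : T} (hA : IsSphere A) (g : A ⟶ V ⊗ D.P) :
    g ≫ V ◁ (ModStr.self D.P).smul (D.vs p h) = 0 := by
  rcases sphere_cases (E := stdEven T) (Iso.refl _) hA with ⟨m, ⟨e⟩⟩ | ⟨l, ⟨e⟩⟩
  · obtain ⟨y, hy, -⟩ := exists_twist (stdEven T) D.R m e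
    obtain ⟨γ, hγ⟩ := (hy V).2 g
    have h1 := twY_v V y (D.vs p h) γ
    have h2 : twY V y γ = g := hγ
    rw [h2] at h1
    change _ = g ≫ V ◁ (ModStr.self D.P).smul (D.vs p h) at h1
    rw [← h1]
    have h3 : pc (𝟙_ T) (V ◁ (ModStr.self D.P).smul (D.vs p h)) γ = 0 := smul_zero_unit H γ
    rw [h3, map_zero]
  · have h0 : ∀ x : A ⟶ (V ⊗ D.R) ⊗ (stdEven T).PS, x = 0 :=
      odd_of_iso e (odd_PS (E := stdEven T) (Iso.refl _) (odd_bot H))
    have h1 : g = 0 := by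
      rw [← cancel_mono (α_ V D.R (stdEven T).PS).inv, h0 (g ≫ _), zero_comp]
    rw [h1, zero_comp]

/-- the telescope of `v_h` on `V ⊗ P` vanishes -/
theorem isZero_Tl (Z : KosData D.P (p : ℤ) h (D.vs p)) : IsZero (V ⊗ Z.Tl) := by
  refine StableCat.generator _ fun n f => ?_
  obtain ⟨k, a, ha⟩ := (Z.isTel.tel.tensL V).exists_factor
    (isCpt_sphere (isSphere_one_shift n)) f
  have h1 := (Z.isTel.tel.tensL V).w k
  have h2 : a ≫ V ◁ (ModStr.self D.P).smul (D.vs p h) = 0 :=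
    smul_zero H (isSphere_one_shift n) a
  rw [← ha, ← h1, ← Category.assoc]
  exact (congrArg (· ≫ _) h2).trans zero_comp

theorem acyclic_Z (Z : KosData D.P (p : ℤ) h (D.vs p)) : Acyclic Z.K V := by
  have h1 : Acyclic Z.Tl V := IsZero.of_iso (isZero_Tl H Z) (β_ Z.Tl V)
  exact acyclic_tensor_left _ h1

end

/-- `V(n)` is cyclic. -/
theorem cyc_of_tow {p : ℕ} [Fact p.Prime] (hp2 : p ≠ 2) : ∀ {h : ℕ} {V : T} {i : 𝟙_ T ⟶ V},
    STow D p h i → Cyc D p h i := by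
  intro h V i hV
  induction hV with
  | one hC => exact cyc_modP D hp2 hC
  | succ H x hx f hf j δ hΔ ih => exact ih.step rfl hx hf hΔ

/-- **Row (A).** `K ⊗ V(n) = 0` for a Morava `K`-theory `K` of height `n`. -/
theorem acyclic_tower {F : SpaceFunctor T} {e : F.S.obj CCF ≅ (stdEven T).L}
    (H : MUUniv e D) {p : ℕ} [Fact p.Prime] (hp2 : p ≠ 2) {n : ℕ} (hn : 1 ≤ n) {V : T}
    {i : 𝟙_ T ⟶ V} (hV : STow D p (n + 1) i) {K : T} [MonObj K] [IsCommMonObj K]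
    (o : Oriented F K) (hK : IsMoravaPos F p n o) : IsZero (K ⊗ V) := by
  obtain ⟨Z⟩ := exists_kosData D.P (p : ℤ) n (D.vs p)
  exact acyclic_of_kos H hn o hK Z (acyclic_Z (cyc_of_tow hp2 hV) Z)

end Vale.Agent.P261.H80
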