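import Vale.Agent.P261.H80.Acyc
import Vale.Agent.P261.H631.Win
import Vale.Agent.P261.H292.Loc
import Vale.Agent.P261.H931.Ext
import Vale.Agent.P261.H183.Zp
import Vale.Agent.P261.H180.Zp

/-!
# P261, row (E): the window theorem, category level

`window` : let `K` be a Morava `K`-theory of height `n ≥ 1` at an odd prime, `X` a `K`-local object
and suppose that the tower of Smith-Toda complexes up to `V(n)` exists. If the groups `π_t X` are
finitely generated over `ℤ_p` for `∑_{1 ≤ m ≤ n} (2 p^m - 1)` consecutive values of `t`, then they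
are finitely generated over `ℤ_p` for all `t`.
-/

open CategoryTheory MonoidalCategory Limits Pretriangulated MonObj

universe v u

set_option linter.unusedSectionVars false

namespace Vale.Agent.P261.H80

open Vale.Agent.P251 Vale.Agent.P251.T Vale.Agent.P251.M Vale.Agent.P251.S Vale.Agent.P251.F
  Vale.Agent.P251.Z Vale.Agent.P251.I
open Vale.Agent.P257.H314

section tow

variable {T : Type u} [Category.{v} T] [Preadditive T] [HasZeroObject T]
    [HasShift T ℤ] [∀ n : ℤ, (shiftFunctor T n).Additive] [Pretriangulated T]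
    [MonoidalCategory T] [SymmetricCategory T] [TensorTriangulated T] [HasCoproducts.{0} T]
    {D : I.MUData T} {p : ℕ}

/-- shorter towers -/
theorem exists_stow {h : ℕ} {V : T} {i : 𝟙_ T ⟶ V} (hV : STow D p h i) (m : ℕ) (hm : 1 ≤ m)
    (hmh : m ≤ h) : ∃ (V' : T) (i' : 𝟙_ T ⟶ V'), STow D p m i' := by
  induction hV with
  | one hC =>
    obtain rfl : m = 1 := by omega
    exact ⟨_, _, STow.one hC⟩
  | @succ h V V' i H x hx f hf j δ hΔ ih =>
    rcases Nat.lt_or_ge m (h + 1) with h1 | h1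
    · exact ih (by omega)
    · obtain rfl : m = h + 1 := by omega
      exact ⟨_, _, STow.succ H x hx f hf j δ hΔ⟩

/-- `X ⊗ V = 0` if `X` is `K`-local and `K ⊗ V = 0`. -/
theorem zero_of_local {K X V : T} {h : ℕ} {i : 𝟙_ T ⟶ V} (hV : STow D p h i)
    (hKV : IsZero (K ⊗ V)) (hX : ∀ W, IsZero (K ⊗ W) → ∀ g : W ⟶ X, g = 0) : IsZero (X ⊗ V) := by
  have h1 : IsLocal K (X ⊗ V) := H292.isLocal_tensor (fun W hW g => hX W hW g) hV
  have h2 : IsZero (X ⊗ (K ⊗ V)) := Functor.map_isZero (tensorLeft X) hKV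
  exact h1.isZero (IsZero.of_iso h2 ((α_ K X V).symm ≪≫ whiskerRightIso (β_ K X) V ≪≫ α_ X K V))

lemma sum_window (p n : ℕ) :
    H631.s p (n + 1) = 1 + ∑ m ∈ Finset.range n, (2 * (p : ℤ) ^ (m + 1) - 1) := by
  unfold H631.s
  have h1 : (2 * ((p : ℤ) ^ 0 - 1) + 1) = 1 := by simp
  have h2 : ∑ k ∈ Finset.range n, (2 * ((p : ℤ) ^ (k + 1) - 1) + 1) =
      ∑ m ∈ Finset.range n, (2 * (p : ℤ) ^ (m + 1) - 1) :=
    Finset.sum_congr rfl fun m _ => by ring
  rw [Finset.sum_range_succ', h1, h2, add_comm]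

end tow

section local_

variable {T : Type u} [Category.{v} T] [Preadditive T] [HasZeroObject T]
    [HasShift T ℤ] [∀ n : ℤ, (shiftFunctor T n).Additive] [Pretriangulated T] [IsTriangulated T]
    [MonoidalCategory T] [SymmetricCategory T] [TensorTriangulated T] [MonoidalClosed T]
    [HasCoproducts.{0} T] [HasProducts.{0} T] [StableCat T]
    {F : SpaceFunctor T} {e : F.S.obj CCF ≅ (stdEven T).L} {D : I.MUData T}
    {p : ℕ} {n : ℕ} {K : T} [MonObj K]

omit [IsTriangulated T] [MonoidalClosed T] [HasProducts.{0} T] [StableCat T] in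
theorem char_of (h : (p : ℤ) • η[K] = 0) : (p : ℤ) • 𝟙 K = 0 := by
  have h1 := map_zsmul (ModStr.self K).smulHom (p : ℤ) η[K]
  have h2 : (ModStr.self K).smulHom η[K] = 𝟙 K := (ModStr.self K).smul_one
  rw [h2, h, map_zero] at h1
  exact h1.symm

/-- the homotopy groups of a local object are Ext-`p`-complete -/
theorem extC {o : Oriented F K} (hK : IsMoravaPos F p n o) {X : T}
    (hX : ∀ W, IsZero (K ⊗ W) → ∀ g : W ⟶ X, g = 0) (t : ℤ) :
    ∀ a : ℕ → ((𝟙_ T)⟦t⟧ ⟶ X), ∃! b : ℕ → ((𝟙_ T)⟦t⟧ ⟶ X), ∀ n, b n = a n + (p : ℤ) • b (n + 1) :=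
  H931.extC (char_of hK.char) hX t

/-- **The window theorem.** -/
theorem window [IsCommMonObj K] (H : MUUniv e D) [Fact p.Prime] (hp2 : p ≠ 2) (hn : 1 ≤ n) {V : T}
    {i : 𝟙_ T ⟶ V} (hV : STow D p (n + 1) i) (o : Oriented F K) (hK : IsMoravaPos F p n o)
    {X : T} (hX : ∀ W, IsZero (K ⊗ W) → ∀ g : W ⟶ X, g = 0) (a : ℤ)
    (h0 : ∀ t : ℤ, a ≤ t → t < a + ∑ m ∈ Finset.range n, (2 * (p : ℤ) ^ (m + 1) - 1) →
      ∃ _ : Module ℤ_[p] ((𝟙_ T)⟦t⟧ ⟶ X), Module.Finite ℤ_[p] ((𝟙_ T)⟦t⟧ ⟶ X)) (t : ℤ) :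
    ∃ _ : Module ℤ_[p] ((𝟙_ T)⟦t⟧ ⟶ X), Module.Finite ℤ_[p] ((𝟙_ T)⟦t⟧ ⟶ X) := by
  have hp : 2 ≤ p := (Fact.out : p.Prime).two_le
  have h1 := acyclic_tower H hp2 hn hV o hK
  have h2 := zero_of_local hV h1 hX
  refine H183.fg_of_extC (extC hK hX t) (H631.up hp hV X a
    (a + ∑ m ∈ Finset.range n, (2 * (p : ℤ) ^ (m + 1) - 1) - 1) (fun t h3 h4 => ?_) ?_ h2 t)
  · have h5 := h0 t h3 (by omega)
    exact ⟨H180.cok_of_fg h5, H180.ker_of_fg h5⟩
  · rw [sum_window]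
    omega

end local_

end Vale.Agent.P261.H80
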