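import Vale.Agent.P261.H80.Asm
import Vale.Agent.P261.H631.Defs
import Vale.Agent.P257.Main.Final
import Vale.Agent.P251.St.Result2
import Vale.Agent.P251.X.KExists
import Vale.Agent.P261.H338.VSeven

/-!
# P261, row (E): the window theorem for abstract stable homotopy categories

* `exists_tower` : the tower of Smith-Toda complexes up to `V(4)` at `p ≥ 11`;
* `main` : the window theorem at `p ≥ 11`, heights `1 ≤ n ≤ 4`, and at `p = 7`, heights
  `1 ≤ n ≤ 3`.
-/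

open CategoryTheory MonoidalCategory Limits Pretriangulated MonObj

set_option linter.unusedSectionVars false

noncomputable section

namespace Vale.Agent.P261.H80

open Vale.Agent.P251 Vale.Agent.P251.T Vale.Agent.P251.F Vale.Agent.P251.I
  Vale.Agent.P251.M Vale.Agent.P257.H314 Vale.Agent.P257.H712 Vale.Agent.P257.H545
  Vale.Agent.P257.Main
open Vale.Agent.P251.S hiding IC

open Vale.Agent.P251.St (SHCat Susp RingSp)
open Vale.Agent.P251.St.SHCat

/-- The tower up to `V(4)`, at `p ≥ 11`. -/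
theorem exists_tower {T : SHCat} (S : Susp T) {p : ℕ} [Fact p.Prime] (h11 : 11 ≤ p) :
    ∃ D : MUData T.C, MUUniv (M.lineIso S.toSpaceFunctor) D ∧
      ∃ (V : T.C) (i : 𝟙_ T.C ⟶ V), STow D p 5 i := by
  have hp : p.Prime := Fact.out
  obtain ⟨D, hD, o, ho⟩ := exists_mu S.toSpaceFunctor (M.lineIso S.toSpaceFunctor)
  obtain ⟨U⟩ := exists_unitCof D.R
  obtain ⟨C, iC, δ, hC⟩ := distinguished_cocone_triangle ((p : ℤ) • 𝟙 (𝟙_ T.C))
  obtain ⟨V, i, hV⟩ := exists_V4P U h11 hC (factsP h11)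
    (P257.H163.todaInput hp (by omega) T.C S.toSpaceFunctor D o ho U)
    (P257.H545.stepInput hp h11 (fun {_} => factsP h11) T.C D U C iC)
  exact ⟨D, hD, V, i, hV.tow⟩

variable {T : SHCat} (S : Susp T) {p : ℕ} [Fact p.Prime] {n : ℕ}

/-- A Morava `K`-theory in the sense of the library. -/
theorem exists_pos (hn : 1 ≤ n) {K : RingSp T} (hK : St.IsMorava S K p n) :
    ∃ (_ : IsCommMonObj K.obj) (o : Z.Oriented S.toSpaceFunctor K.obj),
      Z.IsMoravaPos S.toSpaceFunctor p n o := by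
  have h := St.isMorava_of S K hK
  obtain ⟨m, rfl⟩ : ∃ m, n = m + 1 := ⟨n - 1, by omega⟩
  exact ⟨h.1, h.2⟩

/-- local spectra -/
theorem local_iff {K X : T.C} (hX : ∀ W : T.C, St.Acyclic K W → ∀ g : Hom W X, g = 0) :
    ∀ W, IsZero (K ⊗ W) → ∀ g : W ⟶ X, g = 0 :=
  fun W hW g => hX W ((IsZero.iff_id_eq_zero _).1 hW) g

/-- There is exactly one structure of a `ℤ_p`-module on the homotopy groups. -/
theorem unique_module (hn : 1 ≤ n) {K : RingSp T} (hK : St.IsMorava S K p n) {X : T.C}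
    (hX : ∀ W : T.C, St.Acyclic K.obj W → ∀ g : Hom W X, g = 0) (t : ℤ) :
    Nonempty (Unique (Module ℤ_[p] (Hom (St.sphere T t) X))) := by
  obtain ⟨_, o, h⟩ := exists_pos S hn hK
  have h1 := extC h (local_iff hX) t
  have h2 : H183.ExtC p (Hom (St.sphere T t) X) := by
    intro a
    have h3 := h1 a
    simp only [natCast_zsmul] at h3
    exact h3
  exact ⟨⟨⟨H183.zpModule h2⟩, fun m => H183.smul_unique h2.red _ _⟩⟩

/-- **The window theorem** from the tower. -/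
theorem main_of (hp2 : p ≠ 2) (hn : 1 ≤ n)
    (hT : ∃ D : MUData T.C, MUUniv (M.lineIso S.toSpaceFunctor) D ∧
      ∃ (V : T.C) (i : 𝟙_ T.C ⟶ V), STow D p (n + 1) i)
    {K : RingSp T} (hK : St.IsMorava S K p n) {X : T.C}
    (hX : ∀ W : T.C, St.Acyclic K.obj W → ∀ g : Hom W X, g = 0) (a : ℤ)
    (h0 : ∀ t : ℤ, a ≤ t → t < a + ∑ m ∈ Finset.range n, (2 * (p : ℤ) ^ (m + 1) - 1) →
      H631.FG p (Hom (St.sphere T t) X)) (t : ℤ) : H631.FG p (Hom (St.sphere T t) X) := by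
  obtain ⟨D, H, V, i, hV⟩ := hT
  obtain ⟨_, o, h⟩ := exists_pos S hn hK
  exact window H hp2 hn hV o h (local_iff hX) a h0 t

/-- The tower up to `V(3)`, at `p = 7`. -/
theorem exists_tower_seven (h7 : p = 7) :
    ∃ D : MUData T.C, MUUniv (M.lineIso S.toSpaceFunctor) D ∧
      ∃ (V : T.C) (i : 𝟙_ T.C ⟶ V), STow D p 4 i := by
  obtain ⟨D, hD, o, ho⟩ := exists_mu S.toSpaceFunctor (M.lineIso S.toSpaceFunctor)
  obtain ⟨C, iC, δ, hC⟩ := distinguished_cocone_triangle ((p : ℤ) • 𝟙 (𝟙_ T.C))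
  obtain ⟨V, i, hV⟩ := H338.exists_V3_seven (D := D) h7 hC
  exact ⟨D, hD, V, i, hV.tow⟩

/-- **The window theorem.** -/
theorem main (hn : 1 ≤ n) (hpn : (11 ≤ p ∧ n ≤ 4) ∨ (p = 7 ∧ n ≤ 3))
    {K : RingSp T} (hK : St.IsMorava S K p n) {X : T.C}
    (hX : ∀ W : T.C, St.Acyclic K.obj W → ∀ g : Hom W X, g = 0) (a : ℤ)
    (h0 : ∀ t : ℤ, a ≤ t → t < a + ∑ m ∈ Finset.range n, (2 * (p : ℤ) ^ (m + 1) - 1) →
      H631.FG p (Hom (St.sphere T t) X)) (t : ℤ) : H631.FG p (Hom (St.sphere T t) X) := by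
  rcases hpn with ⟨h11, hn4⟩ | ⟨h7, hn3⟩
  · obtain ⟨D, H, V, i, hV⟩ := exists_tower S h11
    obtain ⟨V', i', hV'⟩ := exists_stow hV (n + 1) (by omega) (by omega)
    exact main_of S (by omega) hn ⟨D, H, V', i', hV'⟩ hK hX a h0 t
  · obtain ⟨D, H, V, i, hV⟩ := exists_tower_seven S h7
    obtain ⟨V', i', hV'⟩ := exists_stow hV (n + 1) (by omega) (by omega)
    exact main_of S (by omega) hn ⟨D, H, V', i', hV'⟩ hK hX a h0 t

/-- Morava `K`-theories exist. -/
theorem exists_K (hp2 : p ≠ 2) (n : ℕ) : ∃ K : RingSp T, St.IsMorava S K p n := by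
  have := locallySmall_self.{0} T.C
  obtain ⟨K, h⟩ := St.exists_morava p (Fact.out : p.Prime).ne_zero T S fun n =>
    X.exists_isMorava S.toSpaceFunctor hp2 n
  exact ⟨K n, h n⟩

end Vale.Agent.P261.H80
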